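import Vale.Agent.P011LW.Lz
import Vale.Agent.P011LL.Core

/-!
Extremal elements at a real place.
-/

set_option linter.all false

open Matrix
open scoped ComplexOrder

namespace Vale.Agent.P011LW

open P011L P011LD P011LE

variable {K : Type} [Field K] [CharZero K] {w : K →+* ℂ} {κ : K →+* K}

theorem herm_diag (hκ : ∀ x, κ (κ x) = x) {G : Matrix S S K} (hG : (G.map κ)ᵀ = G) (u : IsUnit G) :
    ∃ (q : GL S K) (δ : S → K), (∀ i, κ (δ i) = δ i ∧ δ i ≠ 0) ∧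
      q.1 * G * (q.1.map κ)ᵀ = diagonal δ := by
  letI : StarRing K :=
    { star := κ, star_involutive := hκ, star_mul := fun a b => (map_mul κ a b).trans (mul_comm _ _),
      star_add := map_add κ }
  let e : S ≃ Fin (3 * 2) := finProdFinEquiv
  obtain ⟨d, hd, Q, hQ, h⟩ := P011LL.diag _ (G.submatrix e.symm e.symm) (by
    rw [conjTranspose_submatrix]; exact congrArg (fun M => M.submatrix e.symm e.symm) hG)
    ((isUnit_submatrix_equiv _ _).2 u)
  obtain ⟨q, hq⟩ := (isUnit_submatrix_equiv e e).2 hQ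
  refine ⟨q, d ∘ e, fun i => hd _, ?_⟩
  have := congrArg (fun M => M.submatrix e e) h
  simp only [← submatrix_mul_equiv _ _ e e e, submatrix_submatrix, Equiv.symm_comp_self,
    submatrix_id_id, submatrix_diagonal_equiv] at this
  rw [hq]; exact this

/-- The conjugate transpose. -/
noncomputable def sr (κ : K →+* K) (X : R K) : R K := tp (cj κ X)

omit [CharZero K] in
theorem sr_mul (X Y : R K) : sr κ (X * Y) = sr κ Y * sr κ X := by rw [sr, map_mul, tp_mul]; rfl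

omit [CharZero K] in
theorem sr_one : sr κ 1 = 1 := by rw [sr, map_one, tp_one]

omit [CharZero K] in
theorem tr_pos (hc : ∀ x, w (κ x) = star (w x)) {X : R K} (h : X ≠ 0) :
    0 < (w (tr (X * sr κ X))).re := by
  obtain ⟨A, rfl⟩ := E.surjective X
  rw [sr, cj_E, tp_E, ← map_mul, tr_def, AlgEquiv.symm_apply_apply]
  simp only [trace, diag_apply, mul_apply, transpose_apply, map_apply, map_sum, map_mul, hc,
    Complex.re_sum, Complex.star_def, Complex.mul_conj, Complex.ofReal_re]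
  obtain ⟨a, b, e⟩ : ∃ a b, A a b ≠ 0 := by_contra fun c => h (by
    push Not at c
    rw [show A = 0 from Matrix.ext c, map_zero])
  exact Finset.sum_pos' (fun _ _ => Finset.sum_nonneg fun _ _ => Complex.normSq_nonneg _)
    ⟨a, Finset.mem_univ _, Finset.sum_pos' (fun _ _ => Complex.normSq_nonneg _)
      ⟨b, Finset.mem_univ _, Complex.normSq_pos.2 ((map_ne_zero w).2 e)⟩⟩

omit [CharZero K] in
theorem df_cg {n : Type} [Fintype n] [DecidableEq n] (hc : ∀ x, w (κ x) = star (w x))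
    {A m : Matrix n n K} (hm : IsUnit m) {c : K} (c0 : c ≠ 0) (h : Df w A) :
    Df w (c • (m * A * (m.map κ)ᵀ)) := by
  obtain ⟨z, h⟩ := h
  refine ⟨z / w c, ?_⟩
  have e : (z / w c) • (c • (m * A * (m.map κ)ᵀ)).map w = m.map w * (z • A.map w) * (m.map w)ᴴ := by
    have e1 : ((m.map κ)ᵀ).map w = (m.map w)ᴴ := Matrix.ext fun a b => hc _
    have e2 : ∀ B : Matrix n n K, (c • B).map w = w c • B.map w := fun B =>
      Matrix.ext fun _ _ => map_mul w _ _
    rw [e2, smul_smul, div_mul_cancel₀ _ ((map_ne_zero w).2 c0), Matrix.map_mul, Matrix.map_mul, e1,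
      Matrix.mul_smul, Matrix.smul_mul]
  rw [e]
  exact h.mul_mul_conjTranspose_same (vecMul_injective_of_isUnit (hm.map w.mapMatrix))

omit [CharZero K] in
theorem df_diag {n : Type} [Fintype n] [DecidableEq n] {θ : n → K} (z : ℝ)
    (h : ∀ i, ∃ t : ℝ, w (θ i) = t ∧ 0 < z * t) : Df w (diagonal θ) :=
  ⟨z, by
    rw [diagonal_map (map_zero w), ← diagonal_smul]
    exact PosDef.diagonal fun i => by
      obtain ⟨t, a, b⟩ := h i
      rw [Pi.smul_apply, a, smul_eq_mul]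
      exact_mod_cast b⟩

/-- The value of the hermitian form. -/
noncomputable def pv (u : (R K)ˣ) (κ : K →+* K) (x : J K) : K := bf (sg κ x) (u⁻¹.1 x)

/-- The form takes values of opposite signs on the image. -/
def Opp (w : K →+* ℂ) (u : (R K)ˣ) (κ : K →+* K) (X : R K) : Prop :=
  ∃ x y, (w (pv u κ (X x) * κ (pv u κ (X y)))).re < 0

section

variable {u u0 M : (R K)ˣ} {c : K} (hu : u.1 = c • (M.1 * u0.1 * sr κ M.1))

include hu

omit [CharZero K] in
theorem tr_cg (X : R K) :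
    tr (Ad M X * Ad u (sr κ (Ad M X))) = tr (X * Ad u0 (sr κ X)) := by
  have e : Ad u (sr κ (Ad M X)) = Ad M (Ad u0 (sr κ X)) := Ad_eq.2 (by
    have a : sr κ M.1 * sr κ M⁻¹.1 = 1 := by rw [← sr_mul, Units.inv_mul, sr_one]
    simp only [hu, Ad, sr_mul, smul_mul_assoc, mul_smul_comm, mul_assoc, Units.inv_mul_cancel_left,
      ← mul_assoc (sr κ M.1), a, one_mul])
  rw [e, ← Ad_mul', tr_Ad]

omit [CharZero K] in
theorem pv_cg (c0 : c ≠ 0) (x : J K) : pv u κ (M.1 x) = c⁻¹ * pv u0 κ x := by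
  have a : sr κ M.1 * u⁻¹.1 * M.1 = c⁻¹ • u0⁻¹.1 := by
    rw [eq_inv_smul_iff₀ c0, ← Units.inv_mul_cancel_left u0 (c • _), ← Units.inv_mul_cancel_left M
      (u0.1 * _), mul_smul_comm, mul_smul_comm, mul_assoc (sr κ M.1), ← mul_assoc u0.1,
      ← mul_assoc M.1, ← mul_assoc M.1, ← smul_mul_assoc, ← hu, Units.mul_inv_cancel_left,
      Units.inv_mul, mul_one]
  rw [pv, pv, ← cj_sg, ← tp_tp (cj κ M.1), bf_tp, ← Module.End.mul_apply, ← Module.End.mul_apply,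
    mul_assoc, ← mul_assoc (tp _), ← sr, a]
  simp [bf]

omit [CharZero K] in
theorem opp_cg (c1 : c * κ c = 1) {X : R K} (h : Opp w u0 κ X) : Opp w u κ (Ad M X) := by
  obtain ⟨x, y, h⟩ := h
  have e : ∀ x, Ad M X (M.1 x) = M.1 (X x) := fun x => by
    rw [← Module.End.mul_apply, ← Ad_eq.1 rfl, Module.End.mul_apply]
  refine ⟨M.1 x, M.1 y, ?_⟩
  rwa [e, e, pv_cg hu (left_ne_zero_of_mul_eq_one c1), pv_cg hu (left_ne_zero_of_mul_eq_one c1),
    map_mul κ, mul_mul_mul_comm, map_inv₀, ← mul_inv, c1, inv_one, one_mul]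

end

omit [CharZero K] in
theorem pv_eig {u : (R K)ˣ} {x : J K} {e : K} (h : u.1 x = e • x) (e0 : e ≠ 0) (h1 : sg κ x = x)
    (h2 : bf x x = 1) : pv u κ x = e⁻¹ := by
  have a : u⁻¹.1 x = e⁻¹ • x := by
    rw [eq_inv_smul_iff₀ e0, ← map_smul, ← h, ← Module.End.mul_apply, Units.inv_mul]; rfl
  rw [pv, h1, a, bf, map_smul, dotProduct_smul, ← bf, h2, smul_eq_mul, mul_one]

theorem co_cases (p : I) : (∃ a b, ∃ ε : K, ∀ y : J K, co y p = ε * y.1.1 a b) ∨
    ∃ a b, ∃ ε : K, ∀ y : J K, co y p = ε * y.2 a b := by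
  obtain ⟨l, i, j⟩ := p
  fin_cases l <;> fin_cases i <;> fin_cases j <;> first
    | exact .inl ⟨_, _, 1, fun y => (one_mul _).symm⟩
    | exact .inr ⟨_, _, 1, fun y => (one_mul _).symm⟩
    | exact .inl ⟨_, _, -1, fun y => (neg_one_mul _).symm⟩
    | exact .inr ⟨_, _, -1, fun y => (neg_one_mul _).symm⟩

section

variable {u : (R K)ˣ} {D : GL S K} {δ : S → K} {η : Fin 2 → K} {μ : K}
  (hu : u.1 = io D (diagonal η) μ) (hD : D.1 = diagonal δ) (δ0 : ∀ i, δ i ≠ 0)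

include hD δ0 in
theorem inv_diag : D⁻¹.1 = diagonal fun i => (δ i)⁻¹ := Units.inv_eq_of_mul_eq_one_right (by
  rw [hD, diagonal_mul_diagonal, ← diagonal_one]
  exact congrArg _ (funext fun i => mul_inv_cancel₀ (δ0 i)))

include hu hD δ0

theorem ent1 (y : J K) (a b : S) : (u.1 y).1.1 a b = μ * (δ a)⁻¹ * (δ b)⁻¹ * y.1.1 a b := by
  rw [hu, io_1, inv_diag hD δ0, diagonal_transpose, Matrix.smul_apply, mul_diagonal, diagonal_mul,
    smul_eq_mul]
  ring

theorem ent2 (y : J K) (a : Fin 2) (b : S) : (u.1 y).2 a b = η a * δ b * y.2 a b := by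
  rw [hu, io_2, hD, diagonal_transpose, mul_diagonal, diagonal_mul]
  ring

theorem u_ew (a : Fin 2) (i : S) : u.1 (ew a i) = (η a * δ i) • ew a i :=
  J_ext (Matrix.ext fun p q => by rw [ent1 hu hD δ0]; simp [ew]) (Matrix.ext fun p q => by
    rw [ent2 hu hD δ0]
    simp only [ew, jm_2, smul_2, Matrix.smul_apply, single_apply, smul_eq_mul]
    split_ifs with h
    · rw [h.1, h.2]
    · simp)

theorem u_ea (i j : S) : u.1 (ea i j) = (μ * (δ i)⁻¹ * (δ j)⁻¹) • ea i j :=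
  J_ext (Matrix.ext fun p q => by
    rw [ent1 hu hD δ0]
    simp only [ea, jm_1, smul_1, Matrix.smul_apply, Matrix.sub_apply, single_apply, smul_eq_mul,
      mul_sub]
    congr 1 <;> split_ifs with h
    · rw [h.1, h.2]
    · simp
    · rw [h.1, h.2]; ring
    · simp) (Matrix.ext fun p q => by rw [ent2 hu hD δ0]; simp [ea])

theorem u_diag : ∃ θ : I → K, E.symm u.1 = diagonal θ ∧ ∀ p, (∃ a b, θ p = μ * (δ a)⁻¹ * (δ b)⁻¹) ∨
    ∃ a b, θ p = η a * δ b := by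
  have h : ∀ p, ∃ θ : K, (∀ y, co (u.1 y) p = θ * co y p) ∧ ((∃ a b, θ = μ * (δ a)⁻¹ * (δ b)⁻¹) ∨
      ∃ a b, θ = η a * δ b) := fun p => by
    rcases co_cases (K := K) p with ⟨a, b, ε, h⟩ | ⟨a, b, ε, h⟩
    · exact ⟨_, fun y => by rw [h, h, ent1 hu hD δ0, mul_left_comm], .inl ⟨a, b, rfl⟩⟩
    · exact ⟨_, fun y => by rw [h, h, ent2 hu hD δ0, mul_left_comm], .inr ⟨a, b, rfl⟩⟩
  choose θ h1 h2 using h
  refine ⟨θ, E.symm_apply_eq.2 (LinearMap.ext fun y => co.injective (funext fun p => ?_)), h2⟩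
  rw [h1, co_E, mulVec_diagonal]

theorem dg_lz (i j : S) : Ad u (sr κ (lz (single i j 1))) = (δ j / δ i) • sr κ (lz (single i j 1)) := by
  have e : sr κ (lz (single i j (1 : K))) = lz (single j i 1) := by
    rw [sr, cj_lz, tp_lz]; simp
  rw [e, ← lz_smul, Ad_eq, hu]
  refine io_lz _ _ _ ?_
  ext a b
  rw [hD, diagonal_mul, mul_diagonal, Matrix.smul_apply, single_apply]
  split_ifs with h
  · rw [← h.1, ← h.2, smul_eq_mul, mul_one, mul_one, div_mul_cancel₀ _ (δ0 i)]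
  · simp

theorem dg_e0 (η0 : η 0 ≠ 0) : Ad u (sr κ e0) = (η 1 / η 0) • sr κ e0 := by
  rw [e0, sr, cj_io, tp_io, map_one, map_one, inv_one, map_zero, io_smul, Ad_eq, hu, io_mul, io_mul,
    one_mul, mul_one, mul_zero, mul_zero, zero_mul]
  congr 1
  ext a b
  rw [diagonal_mul, mul_diagonal]
  fin_cases a <;> fin_cases b <;> simp [η0]

end

theorem io_sc {g G : GL S K} {c : K} (c0 : c ≠ 0) (e : g.1 = c • G.1) (h : Matrix (Fin 2) (Fin 2) K)
    (l : K) : io g h (c ^ 3 * l) = c • io G h l := by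
  have a : g⁻¹.1 = c⁻¹ • G⁻¹.1 := Units.inv_eq_of_mul_eq_one_right (by
    rw [e, smul_mul_smul_comm, mul_inv_cancel₀ c0, Units.mul_inv, one_smul])
  refine LinearMap.ext fun y => J_ext ?_ ?_
  · simp only [io_1, a, LinearMap.smul_apply, smul_1, transpose_smul, Matrix.smul_mul, Matrix.mul_smul,
      smul_smul]
    congr 1
    field_simp
  · simp only [io_2, e, LinearMap.smul_apply, smul_2, transpose_smul, Matrix.mul_smul]

theorem io_inj {g g' : GL S K} {b l l' z : K} (h : io g !![b, 0; 0, -1] l = z • io g' !![b, 0; 0, -1] l') :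
    g.1 = z • g'.1 ∧ l = z ^ 3 * l' := by
  have a : g.1 = z • g'.1 := Matrix.ext fun i j => by
    have := congrFun (congrFun (congrArg (fun X : R K => (X (ew 1 j)).2) h) 1) i
    simp only [LinearMap.smul_apply, smul_2, io_2, ew, jm_2, Matrix.smul_apply, Matrix.mul_assoc] at this
    simpa [mul_apply, single_apply] using this
  have z0 : z ≠ 0 := fun e => g.ne_zero (by rw [a, e, zero_smul])
  refine ⟨a, ?_⟩
  rw [← io_sc z0 a] at h
  have b := congrArg (fun X : R K => g.1ᵀ * (X (ea (0, 0) (0, 1))).1.1 * g.1) h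
  simp only [io_1, Matrix.mul_smul, Matrix.smul_mul, ← Matrix.mul_assoc, ← transpose_mul,
    Units.inv_mul, transpose_one, Matrix.one_mul, Units.inv_mul_cancel_right] at b
  simpa [ea] using congrFun (congrFun b (0, 0)) (0, 1)

omit [CharZero K] in
theorem exists_re (hc : ∀ x, w (κ x) = star (w x)) {x : K} (h : κ x = x) (x0 : x ≠ 0) :
    ∃ t : ℝ, w x = t ∧ t ≠ 0 := by
  have a := hc x
  rw [h] at a
  refine ⟨(w x).re, (Complex.conj_eq_iff_re.1 a.symm).symm, fun e => (map_ne_zero w).2 x0 ?_⟩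
  rw [← Complex.conj_eq_iff_re.1 a.symm, e, Complex.ofReal_zero]

theorem same_sign (d : S → ℝ) (h : ∀ i, d i ≠ 0) : ∃ i j, i ≠ j ∧ 0 < d j / d i := by
  rcases (h (0, 0)).lt_or_gt with a | a <;> rcases (h (0, 1)).lt_or_gt with b | b <;>
    rcases (h (1, 0)).lt_or_gt with c | c <;> first
    | exact ⟨_, _, by decide, div_pos a b⟩ | exact ⟨_, _, by decide, div_pos_of_neg_of_neg a b⟩
    | exact ⟨_, _, by decide, div_pos a c⟩ | exact ⟨_, _, by decide, div_pos_of_neg_of_neg a c⟩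
    | exact ⟨_, _, by decide, div_pos b c⟩ | exact ⟨_, _, by decide, div_pos_of_neg_of_neg b c⟩

variable [IsAlgClosed K]

theorem loc0 (hc : ∀ x, w (κ x) = star (w x)) {u : (R K)ˣ} {D : GL S K} {δ : S → K} {b μ : K}
    (hu : u.1 = io D (diagonal ![b, -1]) μ) (hD : D.1 = diagonal δ)
    (hδ : ∀ i, κ (δ i) = δ i ∧ δ i ≠ 0) (hb : κ b = b) (b0 : b ≠ 0) (hμ : κ μ = μ) (μ0 : μ ≠ 0) :
    (∃ X, Xt X ∧ 0 < (w (tr (X * Ad u (sr κ X)))).re ∧ (Df w (E.symm u.1) ∨ Opp w u κ X)) ∧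
    (¬Df w D.1 → ∃ X, Xt X ∧ (w (tr (X * Ad u (sr κ X)))).re < 0) := by
  have δ0 : ∀ i, δ i ≠ 0 := fun i => (hδ i).2
  choose d hd d0 using fun i => exists_re hc (hδ i).1 (hδ i).2
  obtain ⟨β, hβ, β0⟩ := exists_re hc hb b0
  obtain ⟨m, hm, m0⟩ := exists_re hc hμ μ0
  have t1 : ∀ i j, (w (tr (lz (single i j 1) * Ad u (sr κ (lz (single i j 1)))))).re =
      d j / d i * (w (tr (lz (single i j 1) * sr κ (lz (single i j 1))))).re := fun i j => by
    rw [dg_lz hu hD δ0, mul_smul_comm, map_smul, smul_eq_mul, map_mul, map_div₀, hd, hd,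
      ← Complex.ofReal_div, Complex.re_ofReal_mul]
  have p0 : ∀ i, w (pv u κ (ew 0 i)) = ((β * d i)⁻¹ : ℝ) := fun i => by
    rw [pv_eig (u_ew hu hD δ0 0 i) (mul_ne_zero b0 (δ0 i)) (sg_ew ..) (bf_ew ..)]
    simp [hβ, hd]
  have p1 : ∀ i, w (pv u κ (ew 1 i)) = ((-d i)⁻¹ : ℝ) := fun i => by
    rw [pv_eig (u_ew hu hD δ0 1 i) (mul_ne_zero (neg_ne_zero.2 one_ne_zero) (δ0 i)) (sg_ew ..)
      (bf_ew ..)]
    simp [hd]
  have p2 : ∀ i j, i ≠ j → w (pv u κ (ea i j)) = ((m * (d i)⁻¹ * (d j)⁻¹)⁻¹ : ℝ) := fun i j h => by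
    rw [pv_eig (u_ea hu hD δ0 i j) (mul_ne_zero (mul_ne_zero μ0 (inv_ne_zero (δ0 i)))
      (inv_ne_zero (δ0 j))) (sg_ea ..) (bf_ea h)]
    simp [hm, hd]
  have op : ∀ {X : R K} (x y : J K) {s t : ℝ}, w (pv u κ (X x)) = (s⁻¹ : ℝ) →
      w (pv u κ (X y)) = (t⁻¹ : ℝ) → s * t < 0 → Opp w u κ X := fun x y s t a b c => ⟨x, y, by
    rw [map_mul, hc, a, b, Complex.star_def, Complex.conj_ofReal, ← Complex.ofReal_mul,
      Complex.ofReal_re, ← mul_inv]
    exact inv_lt_zero.2 c⟩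
  have al : (¬∃ i j, d i * d j < 0) → ∀ i j, 0 < d i * d j := fun h i j =>
    (mul_ne_zero (d0 i) (d0 j)).lt_or_gt.resolve_left fun a => h ⟨i, j, a⟩
  refine ⟨?_, fun h => ?_⟩
  · rcases β0.lt_or_gt with hs | hs
    swap
    · obtain ⟨i, j, a, b⟩ := same_sign d d0
      refine ⟨_, xt_lz a, (t1 i j).symm ▸ mul_pos b (tr_pos hc (xt_lz a).ne), .inr (op (ew 0 j)
        (ew 1 j) ((lz_ew (K := K) 0 i j).symm ▸ p0 i) ((lz_ew (K := K) 1 i j).symm ▸ p1 i) ?_)⟩
      have := mul_pos hs (mul_self_pos.2 (d0 i))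
      linarith
    by_cases h : ∃ i j, d i * d j < 0
    · obtain ⟨i, j, h⟩ := h
      refine ⟨_, xt_e0, ?_, .inr (op (ew 1 i) (ew 1 j) ((e0_ew (K := K) i).symm ▸ p0 i)
        ((e0_ew (K := K) j).symm ▸ p0 j) ?_)⟩
      · rw [dg_e0 hu hD δ0 b0, mul_smul_comm, map_smul, smul_eq_mul, map_mul,
          show w (![b, -1] 1 / ![b, -1] 0) = ((-1 / β : ℝ) : ℂ) by simp [hβ], Complex.re_ofReal_mul]
        exact mul_pos (div_pos_of_neg_of_neg neg_one_lt_zero hs) (tr_pos hc xt_e0.ne)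
      · have := mul_neg_of_pos_of_neg (mul_self_pos.2 β0) h
        linarith
    have a := al h
    have a1 : ((0, 0) : S) ≠ (0, 1) := by decide
    refine ⟨_, xt_lz a1, (t1 _ _).symm ▸ mul_pos (div_pos_iff.2 (mul_pos_iff.1 (a _ _)))
      (tr_pos hc (xt_lz a1).ne), ?_⟩
    have a2 : ∀ i j, 0 < (d i)⁻¹ * (d j)⁻¹ := fun i j => mul_inv (d i) (d j) ▸ inv_pos.2 (a i j)
    rcases (mul_ne_zero (d0 (0, 0)) m0).lt_or_gt with c | c
    · obtain ⟨θ, e, hθ⟩ := u_diag hu hD δ0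
      refine .inl (e ▸ df_diag (-d (0, 0)) fun p => ?_)
      rcases hθ p with ⟨i, j, e⟩ | ⟨i, j, e⟩
      · refine ⟨m * (d i)⁻¹ * (d j)⁻¹, by simp [e, hm, hd], ?_⟩
        have := mul_neg_of_neg_of_pos c (a2 i j)
        linarith
      · fin_cases i
        · refine ⟨β * d j, by simp [e, hβ, hd], ?_⟩
          have := mul_neg_of_neg_of_pos hs (a (0, 0) j)
          linarith
        · refine ⟨-d j, by simp [e, hd], ?_⟩
          have := a (0, 0) j
          linarith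
    · refine .inr (op (ew 0 (0, 1)) (ea (1, 0) (0, 0)) ((lz_ew (K := K) 0 _ _).symm ▸ p0 (0, 0))
        ((lz_ea (K := K) (0, 1) (by decide : ((1, 0) : S) ≠ (0, 0))).symm ▸ p2 _ _ (by decide)) ?_)
      have := mul_neg_of_neg_of_pos hs (mul_pos c (a2 (0, 1) (1, 0)))
      linarith
  · obtain ⟨i, j, a⟩ : ∃ i j, d i * d j < 0 := by_contra fun c =>
      h (hD ▸ df_diag (d (0, 0)) fun i => ⟨_, hd i, al c _ _⟩)
    have e : j ≠ i := fun e => (mul_self_nonneg (d i)).not_gt (e ▸ a)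
    exact ⟨_, xt_lz e, (t1 _ _).symm ▸ mul_neg_of_neg_of_pos (div_neg_iff.2 (mul_neg_iff.1 a))
      (tr_pos hc (xt_lz e).ne)⟩

omit [IsAlgClosed K] in
theorem pv_e0 (hc : ∀ x, w (κ x) = star (w x)) {u : (R K)ˣ} {g : GL S K} {b l : K}
    (hu : u.1 = io g !![b, 0; 0, -1] l) (b0 : b ≠ 0) (l0 : l ≠ 0) {z : ℂ}
    (h : (z • g.1.map w).PosDef) (x : J K) :
    ∃ t : ℝ, 0 ≤ t ∧ w (pv u κ (e0 x)) = (w b)⁻¹ * z * t := by
  have z0 : z ≠ 0 := fun e => h.isUnit.ne_zero (by rw [e, zero_smul])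
  have a : u⁻¹.1 = io g⁻¹ !![b⁻¹, 0; 0, -1] l⁻¹ := Units.inv_eq_of_mul_eq_one_right (by
    rw [hu, io_mul, mul_inv_cancel, mul_inv_cancel₀ l0, ← io_one]
    congr 1
    ext i j
    fin_cases i <;> fin_cases j <;> simp [b0])
  have e : (z • g.1.map w)⁻¹ = z⁻¹ • g⁻¹.1.map w := inv_eq_right_inv (by
    rw [smul_mul_smul_comm, mul_inv_cancel₀ z0, one_smul, ← Matrix.map_mul, Units.mul_inv,
      Matrix.map_one _ (map_zero w) (map_one w)])
  obtain ⟨t, ht⟩ : ∃ t : ℝ, _ = (t : ℂ) :=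
    ⟨_, (Complex.nonneg_iff.1 (h.inv.posSemidef.dotProduct_mulVec_nonneg fun i => w (x.2 1 i))).2
      |> fun a => Complex.ext (Complex.ofReal_re _).symm (a.symm.trans (Complex.ofReal_im _).symm)⟩
  have t0 := h.inv.posSemidef.dotProduct_mulVec_nonneg fun i => w (x.2 1 i)
  refine ⟨t, by exact_mod_cast ht ▸ t0, ?_⟩
  have c : pv u κ (e0 x) = b⁻¹ * ((fun i => κ (x.2 1 i)) ⬝ᵥ g⁻¹.1 *ᵥ x.2 1) :=
    mul_left_cancel₀ (two_ne_zero (α := K)) (by
      have e1 : (e0 x).1.1 = 0 := zero_smul _ _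
      have e2 : (e0 x).2 = of ![x.2 1, 0] := by
        show !![0, 1; 0, 0] * x.2 * (1 : Matrix S S K)ᵀ = _
        rw [transpose_one, Matrix.mul_one]
        ext i j
        fin_cases i <;> simp [mul_apply]
      rw [pv, bf_eq, a, io_1, io_2, e1, e2, show (sg κ (e0 x)).2 = (e0 x).2.map κ from rfl, e2]
      simp [trace, mul_apply, dotProduct, mulVec, Finset.mul_sum, vecMul]
      exact Finset.sum_congr rfl fun i _ => Finset.sum_congr rfl fun j _ => by ring)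
  rw [c, ← ht, e, smul_mulVec, dotProduct_smul, smul_eq_mul, mul_assoc, mul_inv_cancel_left₀ z0,
    map_mul, map_inv₀]
  simp [dotProduct, mulVec, hc]

theorem loc : LOC := by
  intro k K _ _ _ _ _ w κ H g b l z hc hb b0 hz hH hl
  let f : K →+* K := κ
  have hc : ∀ x, w (f x) = star (w x) := hc
  have ff : ∀ x, f (f x) = x := fun x => w.injective (by rw [hc, hc, star_star])
  have l0 : l ≠ 0 := fun e => mul_ne_zero g.det_ne_zero (neg_ne_zero.2 b0) (by rw [← hl, e]; ring)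
  have hu : (EU H).1 = io g !![b, 0; 0, -1] l := hH
  have hf : (!![b, 0; 0, -1].map f)ᵀ = !![b, 0; 0, -1] := by
    ext i j
    fin_cases i <;> fin_cases j <;> simp [f, hb]
  have h1 : H.1 = z • (H.1.map f)ᵀ := by
    have := congrArg (· * (it (GeneralLinearGroup.map f H))⁻¹.1) hz
    simp only [f, Units.val_mul, Units.mul_inv_cancel_right, smul_mul_assoc, one_mul] at this
    exact this
  obtain ⟨h2, h3⟩ := io_inj (g := g) (g' := (it (GeneralLinearGroup.map f g))⁻¹) (b := b) (l := l)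
    (l' := f l) (z := z) (by
      rw [← hH, h1, map_smul, ← tp_E, ← cj_E, hH, cj_io, tp_io, hf])
  replace h2 : g.1 = z • (g.1.map f)ᵀ := h2
  obtain ⟨ζ, ζ0, hζ⟩ : ∃ ζ, ζ ≠ 0 ∧ f ζ = z * ζ ∧ ζ * f ζ = 1 := by
    have z1 : z * f z = 1 := by
      obtain ⟨i, j, e⟩ : ∃ i j, g.1 i j ≠ 0 := by_contra fun c => g.ne_zero (by
        push Not at c
        exact Matrix.ext c)
      have a : g.1 i j = z * f (g.1 j i) := congrFun (congrFun h2 i) j
      have a' : g.1 j i = z * f (g.1 i j) := congrFun (congrFun h2 j) i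
      rw [a', map_mul, ff] at a
      exact mul_right_cancel₀ e (by linear_combination -a)
    obtain ⟨ζ, e⟩ := IsAlgClosed.exists_eq_mul_self (f z)
    have e1 : ζ * f ζ = 1 := by
      refine (mul_self_eq_one_iff.1 ?_).resolve_right fun a => ?_
      · rw [mul_mul_mul_comm, ← map_mul, ← e, ff, mul_comm, z1]
      · have := congrArg w a
        rw [map_mul, hc, Complex.star_def, Complex.mul_conj, map_neg, map_one] at this
        have a1 : Complex.normSq (w ζ) = -1 := by exact_mod_cast this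
        linarith [Complex.normSq_nonneg (w ζ)]
    exact ⟨ζ, left_ne_zero_of_mul_eq_one e1, by
      linear_combination (-f ζ) * z1 + z * f ζ * e + z * ζ * e1, e1⟩
  obtain ⟨q, δ, hδ, hq⟩ := herm_diag ff (G := ζ • g.1) (by
    ext i j
    have a : g.1 i j = z * f (g.1 j i) := congrFun (congrFun h2 i) j
    show f (ζ * g.1 j i) = ζ * g.1 i j
    rw [map_mul, hζ.1, a]; ring) ((Units.mk0 ζ ζ0 • g).isUnit)
  obtain ⟨r, hr⟩ := IsAlgClosed.exists_eq_mul_self q⁻¹.1.det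
  have r0 : r ≠ 0 := left_ne_zero_of_mul (hr ▸ q⁻¹.det_ne_zero)
  have fr : f r ≠ 0 := (map_ne_zero f).2 r0
  let D : GL S K := ⟨diagonal δ, diagonal fun i => (δ i)⁻¹, by
    rw [diagonal_mul_diagonal, ← diagonal_one]
    exact congrArg _ (funext fun i => mul_inv_cancel₀ (hδ i).2), by
    rw [diagonal_mul_diagonal, ← diagonal_one]
    exact congrArg _ (funext fun i => inv_mul_cancel₀ (hδ i).2)⟩
  let M : (R K)ˣ := ⟨io q⁻¹ 1 r, io q 1 r⁻¹, by
    rw [io_mul, inv_mul_cancel, mul_one, mul_inv_cancel₀ r0, io_one], by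
    rw [io_mul, mul_inv_cancel, mul_one, inv_mul_cancel₀ r0, io_one]⟩
  have hM : M ∈ SX K := ⟨r * (1 : Matrix (Fin 2) (Fin 2) K).det, by simpa using r0,
    N_io (by rw [det_one, mul_one, hr, sq])⟩
  let μ := ζ ^ 3 * l / (r * f r)
  have μ0 : μ ≠ 0 := div_ne_zero (mul_ne_zero (pow_ne_zero _ ζ0) l0) (mul_ne_zero r0 fr)
  have hμ : f μ = μ := by
    simp only [μ, map_div₀, map_mul, map_pow, ff, hζ.1, mul_comm (f r)]
    rw [mul_pow, mul_comm (z ^ 3), mul_assoc, ← h3]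
  have dd : (!![b, 0; 0, -1] : Matrix (Fin 2) (Fin 2) K) = diagonal ![b, -1] := by
    ext i j
    fin_cases i <;> fin_cases j <;> simp
  let u0 : (R K)ˣ := ⟨io D (diagonal ![b, -1]) μ, io D⁻¹ (diagonal ![b⁻¹, -1]) μ⁻¹, by
    rw [io_mul, mul_inv_cancel, mul_inv_cancel₀ μ0, ← io_one, diagonal_mul_diagonal, ← diagonal_one]
    congr 2
    funext i
    fin_cases i <;> simp [b0], by
    rw [io_mul, inv_mul_cancel, inv_mul_cancel₀ μ0, ← io_one, diagonal_mul_diagonal, ← diagonal_one]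
    congr 2
    funext i
    fin_cases i <;> simp [b0]⟩
  have hg : g.1 = ζ⁻¹ • (q⁻¹.1 * diagonal δ * (q⁻¹.1.map f)ᵀ) := by
    rw [← hq, ← mul_assoc, Units.inv_mul_cancel_left, mul_assoc, ← transpose_mul, ← Matrix.map_mul,
      Units.inv_mul, Matrix.map_one _ (map_zero f) (map_one f), transpose_one, mul_one,
      inv_smul_smul₀ ζ0]
  have hv : (EU H).1 = ζ⁻¹ • (M.1 * u0.1 * sr f M.1) := by
    show _ = ζ⁻¹ • (io q⁻¹ 1 r * io D _ μ * tp (cj f (io q⁻¹ 1 r)))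
    rw [cj_io, tp_io, io_mul, io_mul, Matrix.map_one _ (map_zero f) (map_one f), transpose_one,
      one_mul, mul_one, ← io_sc (inv_ne_zero ζ0) hg, hu, dd]
    congr 1
    simp only [μ]
    field_simp
  have c1 : ζ⁻¹ * f ζ⁻¹ = 1 := by rw [map_inv₀, ← mul_inv, hζ.2, inv_one]
  obtain ⟨⟨X, a1, a2, a3⟩, a4⟩ := loc0 hc (u := u0) rfl rfl hδ hb b0 hμ μ0
  refine ⟨⟨Ad M X, a1.Ad hM, (tr_cg hv X).symm ▸ a2, a3.imp (fun a => ?_) (opp_cg hv c1)⟩,
    fun h => ?_, fun x y h ⟨ξ, hξ⟩ => ?_⟩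
  · have e : H.1 = ζ⁻¹ • (E.symm M.1 * E.symm u0.1 * ((E.symm M.1).map f)ᵀ) := E.injective (by
      rw [map_smul, map_mul, map_mul, ← tp_E, ← cj_E, AlgEquiv.apply_symm_apply,
        AlgEquiv.apply_symm_apply]
      exact hv)
    exact e ▸ df_cg hc (M.isUnit.map E.symm) (inv_ne_zero ζ0) a
  · obtain ⟨X, a1, a2⟩ := a4 fun a => h (hg ▸ df_cg hc q⁻¹.isUnit (inv_ne_zero ζ0) a)
    exact ⟨Ad M X, a1.Ad hM, (tr_cg hv X).symm ▸ a2⟩
  · obtain ⟨s, s0, hs⟩ := pv_e0 hc hu b0 l0 hξ x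
    obtain ⟨t, t0, ht⟩ := pv_e0 hc hu b0 l0 hξ y
    change (w (pv (EU H) f (e0 x) * f (pv (EU H) f (e0 y)))).re < 0 at h
    rw [map_mul, hc, hs, ht, star_mul', mul_mul_mul_comm, Complex.star_def, Complex.mul_conj,
      Complex.conj_ofReal, ← Complex.ofReal_mul, ← Complex.ofReal_mul, Complex.ofReal_re] at h
    exact (mul_nonneg (Complex.normSq_nonneg _) (mul_nonneg s0 t0)).not_gt h

end Vale.Agent.P011LW
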