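import Vale.Agent.P011LW.Pair
import Vale.Agent.P011LW.Loc

/-!
The unconditional forms.
-/

namespace Vale.Agent.P011LW

theorem pair' : P011LX.PAIR := pair loc

theorem pairg' : P011LO.PAIRG := pairg loc

end Vale.Agent.P011LW
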