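import Vale.Agent.P011LW.Nf
import Vale.Agent.P011LZ.BP

/-!
Density of the rational extremal elements.
-/

namespace Vale.Agent.P011LW

open P011L P011LD P011LE P011LS P011LX P011LZ

variable {k K : Type} [Field k] [Field K] [Algebra k K] {o : (K ≃ₐ[k] K) →* ℤˣ}
  {p : (K ≃ₐ[k] K) → GL I K} {σ : K ≃ₐ[k] K} {Γ : Subgroup (K ≃ₐ[k] K)}

section

variable {U V : Type} [AddCommGroup U] [Module K U] [AddCommGroup V] [Module K V]
  {a : (K ≃ₐ[k] K) → U → U} {a' : (K ≃ₐ[k] K) → V → V}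

theorem sl_gal : Sl Γ fun σ (x : K) => σ x :=
  ⟨fun σ _ => map_add σ, fun σ _ => map_mul σ, fun _ _ _ _ _ => rfl, Op.fix Γ⟩

theorem sl_prod (h : Sl Γ a) (h' : Sl Γ a') : Sl Γ fun σ (x : U × V) => (a σ x.1, a' σ x.2) :=
  ⟨fun σ s _ _ => Prod.ext (h.add σ s _ _) (h'.add σ s _ _),
    fun σ s _ _ => Prod.ext (h.smul σ s _ _) (h'.smul σ s _ _),
    fun σ s τ t _ => Prod.ext (h.mul σ s τ t _) (h'.mul σ s τ t _),
    fun x => Op.imp (Op.and (h.cont x.1) (h'.cont x.2)) fun _ _ e => Prod.ext e.1 e.2⟩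

theorem sl_sub (h : Sl Γ a) (W : Submodule K U) (hW : ∀ σ ∈ Γ, ∀ x ∈ W, a σ x ∈ W) :
    ∃ c : (K ≃ₐ[k] K) → W → W, Sl Γ c ∧ ∀ σ ∈ Γ, ∀ x, (c σ x).1 = a σ x.1 := by
  classical
  let c : (K ≃ₐ[k] K) → W → W := fun σ x => if s : σ ∈ Γ then ⟨_, hW σ s x.1 x.2⟩ else 0
  have e : ∀ σ ∈ Γ, ∀ x, (c σ x).1 = a σ x.1 := fun σ s x => congrArg Subtype.val (dif_pos s)
  refine ⟨c, ⟨fun σ s x y => Subtype.ext ?_, fun σ s t x => Subtype.ext ?_,
    fun σ s τ t x => Subtype.ext ?_, fun x => Op.imp (h.cont x.1) fun σ s e' =>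
      Subtype.ext ((e σ s x).trans e')⟩, e⟩
  · rw [Submodule.coe_add, e σ s, e σ s, e σ s, Submodule.coe_add, h.add σ s]
  · rw [Submodule.coe_smul, e σ s, e σ s, Submodule.coe_smul, h.smul σ s]
  · rw [e _ (mul_mem s t), e σ s, e τ t, h.mul σ s τ t]

theorem bp_comp {P : U × U → K} (h : P ∈ BP σ U) {Φ : V → U} (h' : P1 (K := K) Φ) :
    (fun x : V × V => P (Φ x.1, Φ x.2)) ∈ BP σ V :=
  (Subalgebra.mem_comap _ (AlgHom.pi fun x : V × V =>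
    Pi.evalAlgHom K (fun _ => K) (Φ x.1, Φ x.2)) _).1 (Algebra.adjoin_le (by
      rintro _ (⟨l, rfl⟩ | ⟨l, rfl⟩)
      exacts [h'.fst l, (P1.snd (h'.lin l) (map_add σ) (map_mul σ)).mem]) h)

end

instance : FiniteDimensional K (J K) := Module.Finite.equiv co.symm

theorem p2_dag (H : GL I K) : P2 σ fun x : R K × R K => tr (x.1 * dag H σ x.2) :=
  (P2.fst.mul (P1.id.snd (θ := dag H σ) (fun X Y => by rw [dag, map_add, tp_add, Ad_add]; rfl)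
    fun c X => by rw [dag, cj_smul, tp_smul, Ad_smul]; rfl)).lin tr

variable [CharZero K]

theorem ta_xp (n X : R K) : ta o p σ (xp n X) = xp (ta o p σ n) (ta o p σ X) := by
  have e : (σ : K →+* K) 2⁻¹ = 2⁻¹ := by rw [map_inv₀, map_ofNat]
  have : sa o σ (xp n X) = xp (sa o σ n) (sa o σ X) := by
    unfold sa
    split_ifs
    · simp only [xp, ex, map_mul, map_add, map_one, cj_smul, map_neg, e]
    · simp only [xp, ex, map_mul, map_add, map_one, cj_smul, map_neg, e, tp_mul, tp_add, tp_one,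
        tp_smul, tp_neg, neg_neg, mul_neg, neg_mul, mul_assoc]
  rw [ta, this]
  simp only [ta, xp, ex, Ad_mul', Ad_add, Ad_1, Ad_smul, Ad_neg]

omit [CharZero K] in
theorem pa_xp {X : Type} {A : Subalgebra K (X → K)} {f g : X → R K} (h : PA A f) (h' : PA A g) :
    PA A fun x => xp (f x) (g x) :=
  have e {f : X → R K} (h : PA A f) : PA A fun x => ex (f x) :=
    ((PA.const 1).add h).add ((h.mul h).csmul _)
  ((e h).mul h').mul (e h.neg)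

variable [Algebra.IsAlgebraic ℚ K] [IsAlgClosed K]

/-- A polynomial family of extremal elements. -/
theorem family (hC : COVER) (hp : DD o p) (he : ∀ σ ∈ Γ, ta o p σ e0 = e0)
    (hf : ∀ σ ∈ Γ, ta o p σ f0 = f0) :
    ∃ (V : Type) (_ : AddCommGroup V) (_ : Module K V) (_ : FiniteDimensional K V)
      (a : (K ≃ₐ[k] K) → V → V) (Φ : V → R K), Sl Γ a ∧ P1 (K := K) Φ ∧
      (∀ x, Φ x ≠ 0 → Xt (Φ x)) ∧ (∀ X, Xt X → ∃ x, Φ x = X) ∧
      ∀ x ∈ Fx Γ a, ∀ σ ∈ Γ, ta o p σ (Φ x) = Φ x := by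
  have s := sl_ta o hp.pd Γ
  have d (i : ℤ) := sl_sub s (gl K ⊓ dg K i) fun σ m X h => ⟨ta_gl o (hp.sim σ) h.1, by
    have := congrArg (ta o p σ) (show Dg i X from h.2)
    rwa [ta_br, s.smul σ m, map_intCast, P011LE.h0_eq, ta_br, he σ m, hf σ m,
      ← P011LE.h0_eq] at this⟩
  obtain ⟨c, c1, c2⟩ := d 1
  obtain ⟨c', c3, c4⟩ := d (-1)
  refine ⟨K × ↥(gl K ⊓ dg K 1) × K × ↥(gl K ⊓ dg K (-1)) × K, inferInstance, inferInstance,
    inferInstance, _, fun x => fam x.1 x.2.1 x.2.2.1 x.2.2.2.1 x.2.2.2.2,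
    sl_prod sl_gal (sl_prod c1 (sl_prod sl_gal (sl_prod c3 sl_gal))), ?_,
    fun x h => (hC K _).2 ⟨_, _, _, _, _, fun e => h (by simp only [e, fam, zero_smul]), x.2.1.2.1,
      x.2.1.2.2, x.2.2.2.1.2.1, x.2.2.2.1.2.2, rfl⟩, fun X h => ?_, fun x h σ m => ?_⟩
  · have h2 := (P1.id (K := K) (V := K × ↥(gl K ⊓ dg K 1) × K × ↥(gl K ⊓ dg K (-1)) × K))
    have h3 := h2.lin (LinearMap.snd _ _ _)
    have h4 := h3.lin (LinearMap.snd _ _ _)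
    have h5 := h4.lin (LinearMap.snd _ _ _)
    exact (h2.lin (LinearMap.fst _ _ _)).smul (pa_xp ((h3.lin (LinearMap.fst _ _ _)).lin
      (Submodule.subtype _)) (pa_xp ((h4.lin (LinearMap.fst _ _ _)).smul (PA.const _))
      (pa_xp ((h5.lin (LinearMap.fst _ _ _)).lin (Submodule.subtype _))
      (pa_xp ((h5.lin (LinearMap.snd _ _ _)).smul (PA.const _)) (PA.const _)))))
  · obtain ⟨c, n, t, n', t', -, h1, h2, h3, h4, rfl⟩ := (hC K X).1 h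
    exact ⟨(c, ⟨n, h1, h2⟩, t, ⟨n', h3, h4⟩, t'), rfl⟩
  · have := h σ m
    simp only [Prod.ext_iff, Subtype.ext_iff, c2 σ m, c4 σ m] at this
    obtain ⟨h1, h2, h3, h4, h5⟩ := this
    simp only [fam, s.smul σ m, ta_xp, he σ m, hf σ m, h1, h2, h3, h4, h5]

variable [NumberField k] [IsAlgClosure k K]

/-- **Approximation** by rational extremal elements. -/
theorem dens (hC : COVER) (hA : APX) (hp : DD o p) (hΓ : Op ⊤ (· ∈ Γ))
    (he : ∀ σ ∈ Γ, ta o p σ e0 = e0) (hf : ∀ σ ∈ Γ, ta o p σ f0 = f0) {ι μ : Type} [Finite ι]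
    [Finite μ] {w : ι → K →+* ℂ} {κ : ι → K ≃ₐ[k] K} (h1 : ∀ i, Cj (w i) (κ i))
    (h2 : ∀ i j, (∀ x : k, w i (algebraMap k K x) = w j (algebraMap k K x)) → i = j)
    (h3 : ∀ i, κ i ∉ Γ) {X : ι → R K} (hX : ∀ i, Xt (X i)) {P : ι → μ → R K × R K → K}
    (h4 : ∀ i m, P i m ∈ BP (κ i) (R K)) (h5 : ∀ i m, 0 < (w i (P i m (X i, X i))).re) :
    ∃ e, (e ≠ 0 → Xt e) ∧ (∀ σ ∈ Γ, ta o p σ e = e) ∧ ∀ i m, 0 < (w i (P i m (e, e))).re := by
  obtain ⟨V, _, _, _, a, Φ, a1, a2, a3, a4, a5⟩ := family hC hp he hf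
  choose y hy using fun i => a4 _ (hX i)
  obtain ⟨x, x1, x2⟩ := hA k K V Γ a hΓ a1 ι μ w κ h1 h2 y _ (fun i m => absurd m (h3 i))
    (fun i m => bp_comp (h4 i m) a2) fun i m => by simpa only [hy] using h5 i m
  exact ⟨Φ x, a3 x, a5 x x1, x2⟩

/-- There is a rational extremal element which is opposite to its conjugate. -/
theorem den1 (hC : COVER) (hD : DEN2) (hp : DD o p) (he : ∀ σ ∈ Γ, ta o p σ e0 = e0)
    (hf : ∀ σ ∈ Γ, ta o p σ f0 = f0) {s : K ≃ₐ[k] K} {α : K} (h1 : ∀ σ ∈ Γ, σ α = α)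
    (h2 : s α ≠ α) : ∃ e, Xt e ∧ (∀ σ ∈ Γ, ta o p σ e = e) ∧ tr (e * ta o p s e) ≠ 0 := by
  obtain ⟨V, _, _, _, a, Φ, a1, a2, a3, a4, a5⟩ := family hC hp he hf
  have t := sl_ta o hp.pd ⊤
  obtain ⟨x, hx⟩ := a4 _ xt_e0
  obtain ⟨y, hy⟩ := a4 _ (xt_ta (σ := s⁻¹) hp xt_f0)
  obtain ⟨z, z1, z2⟩ := hD k K V Γ a a1 s α h1 h2 _
    ((a2.fst.mul (a2.snd (t.add s trivial) (t.smul s trivial))).lin tr).mem ⟨x, y, by
      simp only [hx, hy]
      rw [← t.mul _ trivial _ trivial, mul_inv_cancel, t.one, tr_ef]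
      norm_num⟩
  exact ⟨Φ z, a3 z fun e => z2 (by simp only [e, zero_mul, map_zero]), a5 z z1, z2⟩

end Vale.Agent.P011LW
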