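import Vale.Agent.P011LE.IF

/-!
The root elements of `SL₆` and of `SL₂`, the standard basis vectors.
-/

set_option linter.all false

open Matrix

namespace Vale.Agent.P011LW

open P011L P011LD P011LE

variable {K : Type} [Field K] [CharZero K]

/-- The action of the Lie algebra of `GL₆`. -/
def lz (Z : Matrix S S K) : R K where
  toFun y := jm (-(Zᵀ * y.1.1 + y.1.1 * Z)) (mem_Alt (by
    rw [transpose_neg, transpose_add, transpose_mul, transpose_mul, transpose_transpose, y.1.2.1,
      neg_mul, mul_neg, ← neg_add, add_comm])) (y.2 * Zᵀ)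
  map_add' y z := J_ext (by simp only [jm_1, add_1, mul_add, add_mul]; abel)
    (by simp [Matrix.add_mul])
  map_smul' c y := J_ext (by simp) (by simp)

theorem lz_1 (Z : Matrix S S K) (y : J K) : (lz Z y).1.1 = -(Zᵀ * y.1.1 + y.1.1 * Z) := rfl

theorem lz_2 (Z : Matrix S S K) (y : J K) : (lz Z y).2 = y.2 * Zᵀ := rfl

theorem lz_smul (c : K) (Z : Matrix S S K) : lz (c • Z) = c • lz Z :=
  LinearMap.ext fun y => J_ext (by simp [lz_1]) (by simp [lz_2])

theorem tp_lz (Z : Matrix S S K) : tp (lz Z) = lz Zᵀ := by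
  refine tp_eq fun y z => mul_left_cancel₀ (two_ne_zero (α := K)) ?_
  rw [bf_eq, bf_eq, lz_1, lz_2, lz_1, lz_2]
  congr 1
  · simp only [transpose_neg, transpose_add, transpose_mul, transpose_transpose, neg_mul, mul_neg,
      add_mul, mul_add, trace_neg, trace_add, Matrix.mul_assoc]
    rw [trace_mul_comm Z, Matrix.mul_assoc]
  · simp only [transpose_mul, transpose_transpose, Matrix.mul_assoc]

theorem cj_lz (f : K →+* K) (Z : Matrix S S K) : cj f (lz Z) = lz (Z.map f) := by
  refine cj_eq f fun y => J_ext ?_ ?_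
  · change -((Z.map f)ᵀ * y.1.1.map f + y.1.1.map f * Z.map f) = (-(Zᵀ * y.1.1 + y.1.1 * Z)).map f
    rw [← transpose_map, ← Matrix.map_mul, ← Matrix.map_mul, ← Matrix.map_add _ (map_add f),
      ← Matrix.map_neg _ (map_neg f)]
  · change y.2.map f * (Z.map f)ᵀ = (y.2 * Zᵀ).map f
    rw [Matrix.map_mul, transpose_map]

theorem io_lz (g : GL S K) (h : Matrix (Fin 2) (Fin 2) K) (l : K) {Z Z' : Matrix S S K}
    (e : g.1 * Z = Z' * g.1) : io g h l * lz Z = lz Z' * io g h l := by
  have e1 : Z * g⁻¹.1 = g⁻¹.1 * Z' := by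
    rw [Units.mul_inv_eq_iff_eq_mul, mul_assoc, ← e, Units.inv_mul_cancel_left]
  refine LinearMap.ext fun y => J_ext ?_ ?_
  · simp only [Module.End.mul_apply, io_1, lz_1, mul_neg, neg_mul, mul_add, add_mul, smul_neg,
      smul_add, Matrix.mul_smul, Matrix.smul_mul]
    rw [← mul_assoc g⁻¹.1ᵀ Zᵀ, ← transpose_mul, e1, transpose_mul, mul_assoc _ (_ * Z), mul_assoc _ Z, e1]
    simp only [mul_assoc]
  · simp only [Module.End.mul_apply, io_2, lz_2, Matrix.mul_assoc, ← transpose_mul, e]

/-- The basis vectors of the second part. -/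
def ew (a : Fin 2) (i : S) : J K := jm 0 (zero_mem _) (single a i 1)

/-- The basis vectors of the first part. -/
def ea (p q : S) : J K := jm (single p q 1 - single q p 1)
  (mem_Alt (by rw [transpose_sub, transpose_single, transpose_single, neg_sub])) 0

theorem lz_ew (a : Fin 2) (i j : S) : lz (single i j (1 : K)) (ew a j) = ew a i :=
  J_ext (by simp [lz_1, ew]) (by simp [lz_2, ew])

theorem lz_ea {i q : S} (j : S) (h : q ≠ i) : lz (single i j (1 : K)) (ea q i) = ea j q :=
  J_ext (by simp [lz_1, ea, mul_sub, sub_mul, h, h.symm]; abel) (by simp [lz_2, ea])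

theorem e0_ew (i : S) : e0 (ew 1 i : J K) = ew 0 i :=
  J_ext (by simp [e0, io_1, ew]) (by
    show !![0, 1; 0, 0] * single 1 i (1 : K) * (1 : Matrix S S K)ᵀ = single 0 i 1
    rw [transpose_one, Matrix.mul_one]
    ext a j
    fin_cases a <;> simp [mul_apply, single_apply])

theorem sg_ew (f : K →+* K) (a : Fin 2) (i : S) : sg f (ew a i) = ew a i :=
  J_ext (by simp [sg, ew]) (by simp [sg, ew])

theorem sg_ea (f : K →+* K) (p q : S) : sg f (ea p q) = ea p q :=
  J_ext (by simp [sg, ea, Matrix.map_sub]) (by simp [sg, ea])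

theorem bf_ew (a : Fin 2) (i : S) : bf (ew a i : J K) (ew a i) = 1 :=
  mul_left_cancel₀ (two_ne_zero (α := K)) (by rw [bf_eq]; simp [ew])

theorem bf_ea {p q : S} (h : p ≠ q) : bf (ea p q : J K) (ea p q) = 1 :=
  mul_left_cancel₀ (two_ne_zero (α := K)) (by
    rw [bf_eq]; simp [ea, mul_sub, sub_mul, h, h.symm]; norm_num)

theorem ew_ne (a : Fin 2) (i : S) : (ew a i : J K) ≠ 0 := fun e => by
  have := bf_ew (K := K) a i
  rw [e] at this
  simp [bf] at this

variable [IsAlgClosed K]

theorem xt_lz {i j : S} (h : i ≠ j) : Xt (lz (single i j (1 : K))) := by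
  have z1 : single i j (1 : K) * single i j 1 = 0 := single_mul_single_of_ne _ _ _ _ h.symm _
  have z2 : single j i (1 : K) * single j i 1 = 0 := single_mul_single_of_ne _ _ _ _ h _
  have z3 : ∀ A : Alt K, single j i (1 : K) * (A.1 * single i j 1) = 0 := fun A => by
    rw [← mul_assoc, single_mul_mul_single, Alt.dg]; simp
  have q : lz (single i j (1 : K)) * lz (single i j 1) = 0 := LinearMap.ext fun y => J_ext (by
    simp only [Module.End.mul_apply, lz_1, transpose_single, mul_neg, neg_mul, mul_add, add_mul,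
      mul_assoc, z1, z3, ← mul_assoc (single j i (1 : K)) (single j i 1), z2]
    simp) (by simp [lz_2, Matrix.mul_assoc, z2])
  refine ⟨fun e => ew_ne (K := K) 0 i (by rw [← lz_ew 0 i j, e]; rfl), q, gl_of_sq q fun t y => ?_⟩
  let g : GL S K := ⟨transvection i j t, transvection i j (-t), by
    rw [transvection_mul_transvection_same _ _ h, add_neg_cancel, transvection_zero], by
    rw [transvection_mul_transvection_same _ _ h, neg_add_cancel, transvection_zero]⟩
  have e : 1 + t • lz (single i j (1 : K)) = io g 1 1 := LinearMap.ext fun y => J_ext (by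
    show y.1.1 + t • -((single i j (1 : K))ᵀ * y.1.1 + y.1.1 * single i j 1) =
      (1 : K) • ((1 + single i j (-t))ᵀ * y.1.1 * (1 + single i j (-t)))
    rw [show single i j (-t) = -t • single i j (1 : K) by rw [smul_single, smul_eq_mul, mul_one]]
    simp only [transpose_add, transpose_one, transpose_smul, transpose_single, mul_add, add_mul,
      one_mul, mul_one, smul_mul_assoc, mul_smul_comm, mul_assoc, z3, smul_zero]
    module) (by
    show y.2 + t • (y.2 * (single i j (1 : K))ᵀ) = 1 * y.2 * (1 + single i j t)ᵀ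
    rw [show single i j t = t • single i j (1 : K) by simp]
    simp only [transpose_add, transpose_one, transpose_smul, Matrix.mul_add, Matrix.one_mul,
      Matrix.mul_one, Matrix.mul_smul])
  rw [e, N_io (by simp [g, det_transvection_of_ne _ _ h]), det_one, one_mul]

theorem xt_e0 : Xt (e0 : R K) := by
  have q : (e0 * e0 : R K) = 0 := by
    rw [e0, io_mul, mul_zero, ← io_zero 1, mul_one]
    congr 1
    ext a b
    fin_cases a <;> fin_cases b <;> simp
  refine ⟨fun e => ew_ne (K := K) 0 (0, 0) (by rw [← e0_ew, e]; rfl), q, gl_of_sq q fun t y => ?_⟩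
  have d : (1 + t • !![0, 1; 0, 0] : Matrix (Fin 2) (Fin 2) K).det = 1 := by simp [det_fin_two]
  rw [e0, io_smul, ← io_one, io_add, N_io (by rw [d]; simp), d]
  simp

end Vale.Agent.P011LW
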