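import Vale.Agent.P011LX.Oe
import Vale.Agent.P011LS.Geo
import Vale.Agent.P011LS.Ta
import Vale.Agent.P011LE.Gr
import Vale.Agent.P011LM.Cen

/-!
The normal form attached to an extremal element which is opposite to its conjugate.
-/

open Matrix

namespace Vale.Agent.P011LW

open P011L P011LD P011LE P011LS P011LX

variable {k K : Type} [Field k] [Field K] [Algebra k K] {o : (K ≃ₐ[k] K) →* ℤˣ}
  {p : (K ≃ₐ[k] K) → GL I K} {σ : K ≃ₐ[k] K} {α : K} {b : Kˣ}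

theorem ta_tw (m : GL I K) (X : R K) :
    ta o (tw o m p) σ (Ad (EU m) X) = Ad (EU m) (ta o p σ X) := by
  rw [ta, ta, sa_Ad, ← Ad_mul, ← Ad_mul, ← map_mul, ← map_mul, tw, inv_mul_cancel_right]

theorem tr_ta (X Y : R K) : tr (ta o p σ X * ta o p σ Y) = σ (tr (X * Y)) := by
  rw [ta, ta, ← Ad_mul', tr_Ad]
  unfold sa
  split_ifs
  · rw [← map_mul, tr_cj]
    rfl
  · rw [neg_mul_neg, ← tp_mul, tr_tp, ← map_mul, tr_cj, tr_comm]
    rfl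

theorem dag_eq (h : o σ ≠ 1) (X : R K) : dag (p σ) σ X = -ta o p σ X := by
  rw [ta, sa, if_neg h, Ad_neg, neg_neg, dag]

theorem ph_tw (h : o σ ≠ 1) (m : GL I K) (x : J K) :
    ph (tw o m p σ) σ ((EU m).1 x) = ph (p σ) σ x := by
  have e : (EU (st o σ m)).1 = tp (cj (σ : K →+* K) (EU m)⁻¹.1) := by
    rw [← map_inv, EU_val, EU_val, cj_E, tp_E, P011LI.st_out o h]
    rfl
  have e' : (EU m)⁻¹.1 ((EU m).1 x) = x := by
    rw [← Module.End.mul_apply, Units.inv_mul, Module.End.one_apply]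
  simp only [ph, tw, map_mul, map_inv, _root_.mul_inv_rev, inv_inv, Units.val_mul,
    Module.End.mul_apply, e, e']
  rw [bf_comm, bf_tp, cj_sg, e', bf_comm]

theorem neg_of (h : σ (α ^ 2) = α ^ 2) (h' : σ α ≠ α) : σ α = -α :=
  (sq_eq_sq_iff_eq_or_eq_neg.1 (by rw [← map_pow, h])).resolve_left h'

variable [CharZero K]

theorem xt_ta [IsAlgClosed K] (hp : DD o p) {X : R K} (h : Xt X) : Xt (ta o p σ X) := by
  have s := sl_ta o hp.pd ⊤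
  refine ⟨fun e => h.ne ?_, ?_, ta_gl o (hp.sim σ) h.mem⟩
  · rw [← s.one X, ← inv_mul_cancel σ, s.mul _ trivial _ trivial, e, s.zero trivial]
  · rw [ta, ← Ad_mul', sa_sq, h.sq, map_zero, tp_zero, ite_self, Ad_zero]

/-- The action of `σ` on the standard pair. -/
def St (o : (K ≃ₐ[k] K) →* ℤˣ) (p : (K ≃ₐ[k] K) → GL I K) (α : K) (b : Kˣ) (σ : K ≃ₐ[k] K) :
    Prop := (σ α = α → ta o p σ e0 = e0 ∧ ta o p σ f0 = f0) ∧
  (σ α ≠ α → ta o p σ e0 = b.1⁻¹ • f0 ∧ ta o p σ f0 = b.1 • e0)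

theorem st_iff : St o p α b σ ↔
    Ad (EU (p σ)) e0 = io 1 ((hq o α b σ).1 * !![0, 1; 0, 0] * (hq o α b σ)⁻¹.1) 0 ∧
    Ad (EU (p σ)) f0 = io 1 ((hq o α b σ).1 * !![0, 0; 1, 0] * (hq o α b σ)⁻¹.1) 0 := by
  have i1 : (wq (K := K))⁻¹.1 = !![0, 1; -1, 0] := rfl
  have i2 : (jq b)⁻¹.1 = !![0, 1; b.1⁻¹, 0] := by rw [← Units.val_inv_eq_inv_val]; rfl
  have i3 : (wq (K := K)).1 = !![0, -1; 1, 0] := rfl
  have i4 : (jq b).1 = !![0, b.1; 1, 0] := rfl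
  have e1 (c : K) : io (1 : GL S K) !![0, c; 0, 0] 0 = c • e0 := by simp [e0, io_smul]
  have e2 (c : K) : io (1 : GL S K) !![0, 0; c, 0] 0 = c • f0 := by simp [f0, io_smul]
  by_cases h1 : σ α = α <;> by_cases h2 : o σ = 1 <;>
    simp only [St, ta, sa, hq, h1, h2, if_true, if_false, cj_e0, cj_f0, tp_e0, tp_f0, Ad_neg,
      _root_.mul_inv_rev, Units.val_mul, inv_one, Units.val_one, i1, i2, i3, i4, mul_fin_two,
      mul_one, one_mul] <;> simp [e1, e2, neg_eq_iff_eq_neg, and_comm, h1]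

theorem SP0.st {g : (K ≃ₐ[k] K) → GL S K} {l : (K ≃ₐ[k] K) → K} (h : SP0 o p α b g l)
    (σ : K ≃ₐ[k] K) : St o p α b σ := by
  have e (M : Matrix (Fin 2) (Fin 2) K) : Ad (EU (p σ)) (io 1 M 0) =
      io 1 ((hq o α b σ).1 * M * (hq o α b σ)⁻¹.1) 0 := Ad_eq.2 (by
    rw [EU_val, h.eq, io_mul, io_mul, Units.inv_mul_cancel_right, mul_one, one_mul, mul_zero,
      zero_mul])
  exact st_iff.2 ⟨e _, e _⟩

variable [IsAlgClosed K]

theorem sp0_of (hp : DD o p) (h0 : α ≠ 0) (h2 : ∀ σ : K ≃ₐ[k] K, σ (α ^ 2) = α ^ 2)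
    (hb : ∀ σ : K ≃ₐ[k] K, σ b = b) (h : ∀ σ, St o p α b σ) : ∃ g l, SP0 o p α b g l := by
  choose g l h3 h4 using fun σ => P011LM.cen K (EU (p σ)) (hq o α b σ) (EU_mem.2 (hp.sim σ))
    (Ad_eq.1 (st_iff.1 (h σ)).1) (Ad_eq.1 (st_iff.1 (h σ)).2)
  exact ⟨g, l, ⟨h0, h2⟩, hb, h3, h4⟩

variable [Algebra.IsAlgebraic ℚ K]

/-- Opposite pairs become standard after a change of coordinates. -/
theorem std_of (hC : CONJ) {X Y : R K} (hX : Xt X) (hY : Xt Y) (h : X * Y * X = X) :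
    ∃ m, Sim m ∧ Ad (EU m) X = e0 ∧ Ad (EU m) Y = f0 := by
  obtain ⟨u, h1, rfl, rfl⟩ := hC K X Y hX hY h
  obtain ⟨m, e⟩ := EU.surjective u⁻¹
  exact ⟨m, EU_mem.1 (e ▸ inv_mem h1), e ▸ Ad_inv _ _, e ▸ Ad_inv _ _⟩

/-- **The normal form.** -/
theorem nf_of (hC : CONJ) (hX : XT) (hp : DD o p) (h0 : α ≠ 0)
    (h2 : ∀ σ : K ≃ₐ[k] K, σ (α ^ 2) = α ^ 2) {s : K ≃ₐ[k] K} (hs : s α ≠ α) {e : R K} (he : Xt e)
    (hf : ∀ σ, σ α = α → ta o p σ e = e) (ht : tr (e * ta o p s e) ≠ 0) :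
    ∃ m b g l, Sim m ∧ SP0 o (tw o m p) α b g l ∧ Ad (EU m) e = e0 ∧
      ∀ σ, σ α ≠ α → tr (e * ta o p σ e) = 6 / b.1 := by
  have a := sl_ta o hp.pd ⊤
  have s1 := neg_of (h2 s) hs
  have k1 : ∀ σ, σ α ≠ α → ta o p σ e = ta o p s e := fun σ h => by
    rw [← mul_inv_cancel_left s σ, a.mul _ trivial _ trivial, hf _ (s.injective ?_)]
    exact (s.apply_symm_apply _).trans ((neg_of (h2 σ) h).trans s1.symm)
  have k2 : ∀ σ, σ α = α → ta o p σ (ta o p s e) = ta o p s e := fun σ h => by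
    rw [← a.mul _ trivial _ trivial, k1]
    rwa [AlgEquiv.mul_apply, s1, map_neg, h, ← s1]
  have k3 : ∀ σ, σ α ≠ α → ta o p σ (ta o p s e) = e := fun σ h => by
    rw [← a.mul _ trivial _ trivial, hf]
    rw [AlgEquiv.mul_apply, s1, map_neg, neg_of (h2 σ) h, neg_neg]
  let b : Kˣ := Units.mk0 (6 / tr (e * ta o p s e)) (div_ne_zero (by norm_num) ht)
  have hb : ∀ σ : K ≃ₐ[k] K, σ b = b := fun σ => by
    rw [Units.val_mk0, map_div₀, map_ofNat, ← tr_ta (o := o) (p := p)]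
    by_cases h : σ α = α
    · rw [hf σ h, k2 σ h]
    · rw [k1 σ h, k3 σ h, tr_comm]
  obtain ⟨m, m1, m2, m3⟩ := std_of hC he ((xt_ta (σ := s) hp he).smul b.ne_zero) (by
    rw [mul_smul_comm, smul_mul_assoc, hX K e he _ (xt_ta hp he).mem, smul_smul, Units.val_mk0,
      div_mul_div_cancel₀ ht, div_self (by norm_num), one_smul])
  obtain ⟨g, l, h⟩ := sp0_of (b := b) (dd_tw m1 hp) h0 h2 hb fun σ => by
    rw [St, ← m2, ← m3, ta_tw, ta_tw, a.smul _ trivial, hb]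
    exact ⟨fun h => by rw [hf σ h, k2 σ h]; exact ⟨rfl, rfl⟩, fun h => by
      rw [k1 σ h, k3 σ h, Ad_smul, Ad_smul, inv_smul_smul₀ b.ne_zero]; exact ⟨rfl, rfl⟩⟩
  exact ⟨m, b, g, l, m1, h, m2, fun σ h => by
    rw [k1 σ h, Units.val_mk0, div_div_cancel₀ (by norm_num)]⟩

end Vale.Agent.P011LW
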