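import Vale.Agent.P011LW.Dens
import Vale.Agent.P011LZ.Apx
import Vale.Agent.P011LS.Cov
import Vale.Agent.P011LS.Jm
import Vale.Agent.P011LF.Io
import Vale.Agent.P011LO.IF

/-!
Rational standard pairs with prescribed behaviour at the real places.
-/

open Matrix

namespace Vale.Agent.P011LW

open P011L P011LD P011LE P011LS P011LX P011LZ

variable {k K : Type} [Field k] [Field K] [Algebra k K] {o : (K ≃ₐ[k] K) →* ℤˣ}
  {p : (K ≃ₐ[k] K) → GL I K} {Γ : Subgroup (K ≃ₐ[k] K)} {α : K} {b : Kˣ} {w : K →+* ℂ}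
  {s κ : K ≃ₐ[k] K} {g : (K ≃ₐ[k] K) → GL S K} {l : (K ≃ₐ[k] K) → K}

theorem cj_cj' (h : Cj w κ) (x : K) : κ (κ x) = x := w.injective (by rw [h, h, star_star])

theorem re_six (z : ℂ) : (6 / z).re = 6 * z.re / Complex.normSq z := by simp [Complex.div_re]

/-- The bi-polynomial form of the product of two values of the hermitian form. -/
theorem ex_ph (h : Cj w κ) (H : GL I K) (x y : J K) : ∃ P ∈ BP κ (R K),
    ∀ X, P (X, X) = ph H κ (X x) * κ (ph H κ (X y)) := by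
  have e (x : J K) : ph H κ x = ∑ i, κ (co x i) * co ((EU H)⁻¹.1 x) i := by
    rw [ph, bf, co_sg]
    rfl
  have a (u : R K) (x : J K) (i : I) : P1 (K := K) fun X : R K => co (u (X x)) i :=
    ((((P1.id.app (PA.const x)).lin u).lin co.toLinearMap).proj i)
  have c (u : R K) (x : J K) (i : I) := (a u x i).snd (map_add κ) (map_mul κ)
  refine ⟨_, ((PA.sum Finset.univ fun i _ => (c 1 x i).mul (a (EU H)⁻¹.1 x i).fst).mul
    (PA.sum Finset.univ fun i _ => (a 1 y i).fst.mul (c (EU H)⁻¹.1 y i))).mem, fun X => ?_⟩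
  simp only [e, map_sum, map_mul, cj_cj' h, Module.End.one_apply]

variable [CharZero K] [IsAlgClosed K]

theorem loc_at (hL : LOC) (hp : DD o p) (h : SP0 o p α b g l) (c : Cj w κ) (ho : o κ ≠ 1)
    (ha : κ α ≠ α) : (∃ X, Xt X ∧ 0 < (w (tr (X * dag (p κ) κ X))).re ∧ (Df w (p κ).1 ∨
      ∃ x y, (w (ph (p κ) κ (X x) * κ (ph (p κ) κ (X y)))).re < 0)) ∧
    (¬Df w (g κ).1 → ∃ X, Xt X ∧ (w (tr (X * dag (p κ) κ X))).re < 0) ∧
    ∀ x y, (w (ph (p κ) κ (e0 x) * κ (ph (p κ) κ (e0 y)))).re < 0 → ¬Df w (g κ).1 := by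
  obtain ⟨z, h1⟩ := hp.pd.mul κ κ
  obtain ⟨T, hT⟩ := hp.pd.cont
  obtain ⟨-, t, h2⟩ := hT 1 trivial fun _ _ => rfl
  rw [show κ * κ = 1 from AlgEquiv.ext (cj_cj' c), h2, smul_smul, st, if_neg ho] at h1
  have e : (hq o α b κ).1 = !![b.1, 0; 0, -1] := by simp [hq, ha, ho, jq, wq]
  exact hL k K w κ _ _ b (l κ) _ c (h.be κ) b.ne_zero h1 (e ▸ h.eq κ) (by simp [h.det κ, e])

variable [Algebra.IsAlgebraic ℚ K] [NumberField k] [IsAlgClosure k K]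

theorem std (hp : DD o p) {X : R K} (hX : Xt X) (hf : ∀ σ ∈ Γ, ta o p σ X = X) :
    ∃ m, Sim m ∧ (∀ σ ∈ Γ, ta o (tw o m p) σ e0 = e0) ∧ ∀ σ ∈ Γ, ta o (tw o m p) σ f0 = f0 := by
  obtain ⟨Y, h1, h2, h3⟩ := jm k K o p Γ X hp hX hf
  obtain ⟨m, m1, m2, m3⟩ := std_of conj' hX h1 h2
  exact ⟨m, m1, fun σ a => by rw [← m2, ta_tw, hf σ a], fun σ a => by
    rw [← m3, ta_tw]; exact congrArg _ (h3 σ a)⟩

/-- **Standard pairs with open conditions at the real places.** -/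
theorem both (hp : DD o p) (h0 : α ≠ 0) (h2 : ∀ σ : K ≃ₐ[k] K, σ (α ^ 2) = α ^ 2) (hs : s α ≠ α)
    {Y : R K} (hY : Xt Y) (hf : ∀ σ, σ α = α → ta o p σ Y = Y) {ι μ : Type} [Finite ι] [Finite μ]
    {w : ι → K →+* ℂ} {κ : ι → K ≃ₐ[k] K} (a1 : ∀ i, Cj (w i) (κ i))
    (a2 : ∀ i j, (∀ x : k, w i (algebraMap k K x) = w j (algebraMap k K x)) → i = j)
    (a3 : ∀ i, κ i α ≠ α) {X : ι → R K} (hX : ∀ i, Xt (X i)) {P : ι → μ → R K × R K → K}
    (a4 : ∀ i m, P i m ∈ BP (κ i) (R K)) (a5 : ∀ i m, 0 < (w i (P i m (X i, X i))).re)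
    (a6 : ∀ i e, (∀ m, 0 < (w i (P i m (e, e))).re) → tr (e * ta o p (κ i) e) ≠ 0) :
    ∃ e m b g l, Sim m ∧ SP0 o (tw o m p) α b g l ∧ Ad (EU m) e = e0 ∧
      (∀ σ, σ α ≠ α → tr (e * ta o p σ e) = 6 / b.1) ∧ ∀ i m, 0 < (w i (P i m (e, e))).re := by
  obtain ⟨m, m1, m2, m3⟩ := std (Γ := MulAction.stabilizer _ α) hp hY hf
  have fx : ∀ e, (∀ σ ∈ MulAction.stabilizer _ α, ta o (tw o m p) σ e = e) → ∀ σ, σ α = α →
      ta o p σ (Ad (EU m)⁻¹ e) = Ad (EU m)⁻¹ e := fun e h σ a =>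
    Ad_inj (EU m) (by rw [← ta_tw, Ad_inv', h σ a])
  have m4 := inv_mem (EU_mem.2 m1)
  rcases isEmpty_or_nonempty ι with _ | ⟨⟨i⟩⟩
  · obtain ⟨e, e1, e2, e3⟩ := den1 cover' den2 (dd_tw m1 hp) m2 m3 (fun _ a => a) hs
    obtain ⟨m', b, g, l, h⟩ := nf_of conj' xt' hp h0 h2 hs (e1.Ad m4) (fx e e2) (by
      rwa [← tr_Ad (EU m), Ad_mul', ← ta_tw, Ad_inv'])
    exact ⟨_, m', b, g, l, h.1, h.2.1, h.2.2.1, h.2.2.2, isEmptyElim⟩
  · obtain ⟨e, e1, e2, e3⟩ := dens cover' apx (dd_tw m1 hp) (Op.fix ⊤ α) m2 m3 a1 a2 a3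
      (fun i => (hX i).Ad (EU_mem.2 m1)) (fun i j => bp_comp (a4 i j) (Φ := Ad (EU m)⁻¹)
        (((PA.const _).mul P1.id).mul (PA.const _))) fun i j => by simpa only [Ad_inv] using a5 i j
    have t := a6 i _ (e3 i)
    obtain ⟨m', b, g, l, h⟩ := nf_of conj' xt' hp h0 h2 (a3 i) ((e1 fun z => t (by
      rw [z, Ad_zero, zero_mul, map_zero])).Ad m4) (fx e e2) t
    exact ⟨_, m', b, g, l, h.1, h.2.1, h.2.2.1, h.2.2.2, e3⟩

end Vale.Agent.P011LW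

namespace Vale.Agent.P011LW

open P011L P011LD P011LE P011LS P011LX P011LZ

theorem alg_q (k K : Type) [Field k] [NumberField k] [Field K] [CharZero K] [Algebra k K]
    [IsAlgClosure k K] : Algebra.IsAlgebraic ℚ K :=
  have : IsScalarTower ℚ k K := IsScalarTower.of_algebraMap_eq fun c => by simp
  Algebra.IsAlgebraic.trans ℚ k K

theorem prs : P011LO.PRS := fun k K _ _ _ _ _ _ o p α s hp h0 h2 hs ha ⟨Y, y1, y2⟩ hX => by
  have := IsAlgClosure.isAlgClosed k (K := K)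
  have := alg_q k K
  obtain ⟨ι, _, w, κ, r1, r2, r3⟩ := reps k K o
  choose X x1 x2 using fun i => hX _ _ (r1 i).1 (r1 i).2
  have t := sl_ta o hp.pd ⊤
  obtain ⟨e, m, b, g, l, m1, m2, -, m3, m4⟩ := both (μ := Unit) hp h0 h2 hs (ext_iff_xt.1 y1)
    (fun σ a => (fixL_iff o).1 (y2 σ a)) (fun i => (r1 i).1) r2
    (fun i => ha _ _ (r1 i).1 (r1 i).2) x1 (fun i _ => ((P2.fst.mul (P1.id.snd
      (t.add (κ i) trivial) (t.smul _ trivial))).lin tr).mem) (fun i _ => x2 i)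
    fun i e h z => by simpa [z] using h ()
  refine ⟨m, b, g, l, m1, m2, fun w' κ' c1 c2 => ?_⟩
  obtain ⟨i, σ, c3, -⟩ := r3 w' κ' c1 c2
  have := m4 i ()
  rw [m3 _ (ha _ _ (r1 i).1 (r1 i).2), map_div₀, map_ofNat, re_six] at this
  rw [c3, m2.be]
  linarith [(div_pos_iff_of_pos_right (Complex.normSq_pos.2 ((map_ne_zero _).2 b.ne_zero))).1 this]

theorem pairg (hL : LOC) : P011LO.PAIRG := fun k K _ _ _ _ _ _ o p α s hp h0 h2 hs ha
    ⟨Y, y1, y2⟩ => by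
  have := IsAlgClosure.isAlgClosed k (K := K)
  have := alg_q k K
  obtain ⟨-, m', b', g', l', n1, n2, -⟩ := both (ι := Empty) (μ := Unit) (w := Empty.elim)
    (κ := Empty.elim) (X := Empty.elim) (P := Empty.elim) hp h0 h2 hs (ext_iff_xt.1 y1)
    (fun σ a => (fixL_iff o).1 (y2 σ a)) (·.elim) (·.elim) (·.elim) (·.elim) (·.elim) (·.elim)
    (·.elim)
  have hp' := dd_tw n1 hp
  obtain ⟨ι, _, w, κ, r1, r2, r3⟩ := reps k K o
  have a3 := fun i => ha _ _ (r1 i).1 (r1 i).2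
  choose X x1 x2 x3 using fun i => (loc_at hL hp' n2 (r1 i).1 (r1 i).2 (a3 i)).1
  have : ∀ i, ∃ P ∈ BP (κ i) (R K), 0 < (w i (P (X i, X i))).re ∧ ∀ e, 0 < (w i (P (e, e))).re →
      Df (w i) (tw o m' p (κ i)).1 ∨ ∃ x y, (w i (ph (tw o m' p (κ i)) (κ i) (e x) *
        κ i (ph (tw o m' p (κ i)) (κ i) (e y)))).re < 0 := fun i => by
    rcases x3 i with h | ⟨x, y, h⟩
    · exact ⟨1, one_mem _, by simp, fun _ _ => Or.inl h⟩
    · obtain ⟨P, h1, h3⟩ := ex_ph (r1 i).1 (tw o m' p (κ i)) x y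
      exact ⟨-P, neg_mem h1, by simpa [h3] using h, fun e h => Or.inr ⟨x, y, by simpa [h3] using h⟩⟩
  choose P p1 p2 p3 using this
  obtain ⟨e, m, b, g, l, m1, m2, m3, m4, m5⟩ := both (μ := Bool) (P := fun i j =>
      cond j (P i) fun x => tr (x.1 * dag (tw o m' p (κ i)) (κ i) x.2)) hp' h0 h2 hs xt_e0
    (fun σ a => ((SP0.st n2 σ).1 a).1) (fun i => (r1 i).1) r2 a3 x1
    (fun i => Bool.rec (p2_dag (σ := κ i) _).mem (p1 i)) (fun i => Bool.rec (x2 i) (p2 i))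
    fun i e h z => by simpa [dag_eq (p := tw o m' p) (r1 i).2, z] using h false
  refine ⟨m * m', b, g, l, sim_mul m1 n1, ?_⟩
  rw [← tw_tw]
  refine ⟨m2, fun w' κ' c1 c2 => ?_⟩
  obtain ⟨i, σ, c3, c4⟩ := r3 w' κ' c1 c2
  have hp'' := dd_tw m1 hp'
  refine ⟨ha _ _ c1 c2, ?_, fun d => ?_⟩
  · have := m5 i false
    simp only [cond_false, dag_eq (p := tw o m' p) (r1 i).2, mul_neg, map_neg, m4 _ (a3 i),
      map_div₀, map_ofNat, Complex.neg_re, re_six] at this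
    rw [← neg_div] at this
    rw [c3, m2.be]
    linarith [(div_pos_iff_of_pos_right (Complex.normSq_pos.2 ((map_ne_zero _).2 b.ne_zero))).1 this]
  · have d' := dinv k K S o g (P011LF.spd k K o _ α b g l hp''.pd m2) _ _ _ _ σ (r1 i).1 (r1 i).2 c3
      c4 d
    rcases p3 i e (m5 i true) with h | ⟨x, y, h⟩
    · exact dfn_tw m ⟨_, _, (r1 i).1, (r1 i).2, h⟩
    · refine absurd d' ((loc_at hL hp'' m2 (r1 i).1 (r1 i).2 (a3 i)).2.2 ((EU m).1 x)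
        ((EU m).1 y) ?_)
      have q (x : J K) : e0 ((EU m).1 x) = (EU m).1 (e x) := LinearMap.congr_fun (Ad_eq.1 m3).symm x
      rwa [q, q, ph_tw (r1 i).2, ph_tw (r1 i).2]

theorem pair (hL : LOC) : PAIR := fun k K _ _ _ _ _ _ o p α s hp h hs =>
  pairg hL k K o p α s hp (fun e => by simp [e] at h) (fun σ => by rw [h, map_neg, map_one]) hs
    fun w κ c _ e => by
      obtain ⟨t, ht⟩ := Complex.conj_eq_iff_real.1 ((c α).symm.trans (congrArg w e))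
      have := congrArg w h
      rw [map_pow, map_neg, map_one, ht] at this
      nlinarith [sq_nonneg t, show t ^ 2 = -1 by exact_mod_cast this]

end Vale.Agent.P011LW
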